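import Crest.Agent.X212.Nt66.Ln
import Crest.Agent.X212.Loc8.Red

/-! Row 212, NT-R (helper55): the reflection in a parallel axis. -/

set_option autoImplicit false
set_option linter.unusedSectionVars false
noncomputable section
open scoped Manifold ContDiff Topology InnerProductSpace
open MeasureTheory Set Function Filter

namespace Crest.Agent.X212.Nr55
open An M Nd18 Mod61 Nk89 Cht98 Rf65 Pte3 Prm93 Eqv71
open Wz78 (g_skw g_p g_J g_ρ g_j g_p' opL_inj)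
open Loc8 (Rd)
open Nt66 (ln ln_W ln_Φ der_lnC der_even ofV_zero)

section gen
variable {E : Type} [NormedAddCommGroup E] [NormedSpace ℝ E] [FiniteDimensional ℝ E]
  [MeasurableSpace E] [BorelSpace E]
  {HM : Type} [TopologicalSpace HM] {I : ModelWithCorners ℝ E HM} [I.Boundaryless]
  {M : Type} [TopologicalSpace M] [ChartedSpace HM M] [IsManifold I ∞ M]
  [MeasurableSpace M] [T2Space M] [BorelSpace M] [SecondCountableTopology M]
  {ι : Type} [Fintype ι] {lam : Type} [Fintype lam] {r : ℕ}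
  {B : Base M ι lam} {G : Geo I M ι lam} {m : Md M ι lam} {W W₁ W₂ : m.Cn} {O : Set M}
  {ξ : M → m.A} {x : M}

open Classical in
/-- the reflection: `ξ` on `O`, the identity outside -/
def ru (m : Md M ι lam) (O : Set M) (ξ : M → m.A) : M → CL m.V m.V :=
  fun z => if z ∈ O then opL (ξ z) else m.p z

theorem ru_in (hO : IsOpen O) (hx : x ∈ O) : ru m O ξ =ᶠ[𝓝 x] fun z => opL (ξ z) :=
  (hO.eventually_mem hx).mono fun _ hy => if_pos hy

theorem ru_out (hO : IsClosed O) (hx : x ∉ O) : ru m O ξ =ᶠ[𝓝 x] m.p :=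
  (hO.isOpen_compl.eventually_mem hx).mono fun _ hy => if_neg hy

theorem cj_ru (H : m.OK I B) (hO : IsClopen O) (R : Rd G.F m W O ξ) (a : m.A) :
    ⟪ξ x, cj (ru m O ξ x) a⟫_ℝ = ⟪ξ x, a⟫_ℝ := by
  rw [real_inner_comm, real_inner_comm a]
  by_cases hx : x ∈ O
  · have g := R.mem x hx
    rw [inner_cj, (ru_in hO.2 hx).self_of_nhds]
    congr 1
    refine opL_inj ?_
    rw [opL_cj, trn_trn, trn_of_skw (g_skw g), ← ContinuousLinearMap.mul_def,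
      ← ContinuousLinearMap.mul_def, R.sq x hx, neg_mul_neg, g_p' H g]
  · rw [R.off x hx, inner_zero_right, inner_zero_right]

/-- the reflection reverses the normal variations -/
theorem ceq_ru (hB : B.OK I) (hG : G.OK B) {Φ : M → m.V} {z : EuclideanSpace ℂ (Fin r)}
    (h : Ad0 (⟨m, W, Φ, z⟩ : Cfg M ι lam r) B G) (h2 : m.IsConn B G W₂) (hO : IsClopen O)
    (R : Rd G.F m W O ξ) (hz : ∀ x ∈ O, Φ x = 0) {γ : M → ι → m.A} (g : ∀ x a, γ x a ∈ m.gS x)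
    (g0 : ∀ x ∉ O, ∀ a, γ x a = 0) (gn : ∀ x a, ⟪γ x a, ξ x⟫_ℝ = 0)
    (w1 : ∀ a x, W₁ a x = W a x + opL (γ x a)) (w2 : ∀ a x, W₂ a x = W a x - opL (γ x a))
    (Ω : Set M) : EqOn B G.F Ω ⟨m, W₁, Φ, z⟩ ⟨m, W₂, Φ, z⟩ (ru m O ξ) 1 := by
  have e := ceq_refl hB hG h isOpen_univ
  have H : m.OK I B := h.ok
  have i := fun x (hx : x ∈ O) => (ru_in (ξ := ξ) hO.2 hx).self_of_nhds
  have o := fun x (hx : x ∉ O) => (ru_out (ξ := ξ) hO.1 hx).self_of_nhds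
  refine ⟨⟨fun x _ => ContMDiffAt.contMDiffWithinAt ?_, fun x _ => ?_, fun x _ => ?_,
    fun x _ => ?_, fun x _ b => ?_, fun x _ s => ?_⟩, fun x _ a => ?_, fun x _ => ?_, e.z⟩ <;>
    by_cases hx : x ∈ O
  · exact (R.sm_opL hx).congr_of_eventuallyEq (ru_in hO.2 hx)
  · exact (H.sp x).congr_of_eventuallyEq (ru_out hO.1 hx)
  · rw [i x hx, trn_of_skw (g_skw (R.mem x hx)), ← ContinuousLinearMap.mul_def, neg_mul, R.sq x hx,
      neg_neg]
  · rw [o x hx]; exact e.m.uu x trivial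
  · rw [i x hx, trn_of_skw (g_skw (R.mem x hx)), ← ContinuousLinearMap.mul_def, mul_neg, R.sq x hx,
      neg_neg]; rfl
  · rw [o x hx]; exact e.m.uu' x trivial
  · rw [i x hx]; exact (g_J (R.mem x hx)).symm
  · rw [o x hx]; exact e.m.J x trivial
  · rw [i x hx, (H.cl x).proj]; exact g_ρ (R.mem x hx) b
  · rw [o x hx]; exact e.m.ρ x trivial b
  · rw [i x hx]; exact (congrArg (· ∘L opL (ξ x)) (H.jl x s)).trans (g_j (R.mem x hx) s)
  · rw [o x hx]; exact e.m.j x trivial s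
  · have k := Abel74.g_anti hB H (g x a) (R.mem x hx)
    have n := R.nE hx a
    rw [gn, neg_zero, zero_div, zero_smul] at k
    simp only [fun b => (hB.pr x).symm b a]
    rw [show ∑ b, B.P a b x • W₂ b (id x) = W₂ a x from h2.cc.proj a x, Pre.D_def,
      Sob92.dv_congr (ru_in hO.2 hx), i x hx, w1, w2, ← ContinuousLinearMap.mul_def,
      ← ContinuousLinearMap.mul_def, sub_mul, mul_add, ← sub_eq_zero.2 (n.trans k.symm), Wz78.nabE]
    abel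
  · have k := e.W x trivial a
    simp only [fun b => (hB.pr x).symm b a] at k ⊢
    rw [show ∑ b, B.P a b x • W b (id x) = W a x from h.conn.cc.proj a x] at k
    rw [show ∑ b, B.P a b x • W₂ b (id x) = W₂ a x from h2.cc.proj a x, Pre.D_def,
      Sob92.dv_congr (ru_out hO.1 hx), o x hx, w1, w2, g0 x hx, map_zero, add_zero, sub_zero]
    exact k
  · exact (hz x hx).trans (by simp [hz x hx, cs])
  · rw [o x hx]; exact e.Φ x trivial

/-- naturality of the curvature row -/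
def natC {T : Type} (n k : ℕ) (t : T) (O : Set M) (c c' : Cfg M ι lam r)
    (u : M → CL c.m.V c'.m.V) : Submodule ℝ (T → PtX M ι lam r n k) where
  carrier := {τ | ∀ x ∈ O, ∀ s, (τ t).C c' x s = cj (u x) ((τ t).C c x s)}
  add_mem' := fun a b x hx s =>
    (congrArg₂ (· + ·) (a x hx s) (b x hx s)).trans (map_add _ _ _).symm
  zero_mem' := fun x _ _ => (map_zero (cj (u x))).symm
  smul_mem' := fun s _ a x hx i => (congrArg (s • ·) (a x hx i)).trans (map_smul _ _ _).symm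

variable {T : Type} [NormedAddCommGroup T] [NormedSpace ℝ T] {𝔉 : Fam I M ι lam T} (h : 𝔉.OK)
  {o : Ref 𝔉} {y y₁ y₂ : Pnt o r} {n k : ℕ}
include h

theorem nat_sum {Wi : Type} {e : T → PtX M ι lam r n k} {τ : Wi → T → PtX M ι lam r n k}
    (he : 𝔉.Nat e) (hτ : ∀ w, 𝔉.Nat (τ w)) (q : Wi →₀ ℝ) {u ζ} (ht : y₂.t = y₁.t)
    (e' : y₁.Eq y₂ u ζ) : (e + q.sum fun w a => a • τ w) ∈ natC n k y₁.t 𝔉.Om y₁.cfg y₂.cfg u := by
  have a2 : Ad0 y₂.cfg 𝔉.B (𝔉.G y₁.t) := ht ▸ y₂.ad0 h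
  have k : ∀ {τ}, 𝔉.Nat τ → τ ∈ natC n k y₁.t 𝔉.Om y₁.cfg y₂.cfg u := fun k x hx s =>
    (k y₁.t y₁.ht y₁.cfg y₂.cfg u ζ (adm0 (y₁.ad0 h)) (adm0 a2) (y₁.off h) (y₂.off h) e').2.1 x hx s
  exact Submodule.add_mem _ (k he) (Submodule.sum_mem _ fun w _ => Submodule.smul_mem _ _ (k (hτ w)))

theorem eq_ru {ξ : M → o.m.A} (hO : IsClopen O) (R : Rd (𝔉.G y.t).F o.m y.cfg.W O ξ)
    (hz : ∀ z ∈ O, y.cfg.Φ z = 0) {α : M → Fm ι o.m.A} (p1 : ∀ z, o.P1 z (α z) = α z)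
    (h0 : ∀ z ∉ O, α z = 0) (hn : ∀ z j, ⟪α z j, ξ z⟫_ℝ = 0) (s : ℝ) (t1 : y₁.t = y.t)
    (t2 : y₂.t = y.t) (a1 : y₁.α = y.α + s • α) (a2 : y₂.α = y.α + -s • α) (φ1 : y₁.φ = y.φ)
    (φ2 : y₂.φ = y.φ) (z1 : y₁.z = y.z) (z2 : y₂.z = y.z) : y₁.Eq y₂ (ru o.m O ξ) 1 := by
  have c2 : o.m.IsConn 𝔉.B (𝔉.G y₂.t) (o.W y₂.t y₂.α) := (y₂.ad0 h).conn
  rw [t2, a2] at c2
  have w : ∀ s : ℝ, ∀ a z, o.W y.t (y.α + s • α) a z =
      o.W y.t y.α a z + s • opL (∑ b, 𝔉.S y.t z a b • α z b) := fun s a z => by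
    simp only [W_apply, Pi.add_apply, Pi.smul_apply, PiLp.add_apply, PiLp.smul_apply, map_add,
      map_smul, map_sum, smul_add, Finset.sum_add_distrib, add_assoc, Finset.smul_sum, smul_comm s]
  have := ceq_ru (m := o.m) (W := o.W y.t y.α) (W₁ := o.W y.t (y.α + s • α)) (Φ := o.Φ0 + y.φ)
    (z := y.z) h.B (h.G _ y.ht) (y.ad0 h) c2 hO R hz (γ := fun z a => s • ∑ b, 𝔉.S y.t z a b • α z b)
    (fun z a => Submodule.smul_mem _ _ (Submodule.sum_mem _ fun i _ =>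
      Submodule.smul_mem _ _ (idx_mem (p1 z) i))) (fun z hz a => by simp [h0 z hz])
    (fun z a => by simp only [sum_inner, real_inner_smul_left, hn, mul_zero, Finset.sum_const_zero])
    (fun a z => by rw [w, map_smul]) (fun a z => by rw [w, map_smul, neg_smul, sub_eq_add_neg]) 𝔉.Om
  obtain ⟨_, _, _, _, _, _, _⟩ := y₁
  obtain ⟨_, _, _, _, _, _, _⟩ := y₂
  obtain rfl := t1; obtain rfl := t2; obtain rfl := a1; obtain rfl := a2
  obtain rfl := φ1; obtain rfl := φ2; obtain rfl := z1; obtain rfl := z2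
  exact this

omit h in
theorem row_ru {ξ : M → o.m.A} {W : o.m.Cn} (hO : IsClopen O) (R : Rd G.F o.m W O ξ)
    {τ : T → PtX M ι lam r n k} (ht : y₂.t = y₁.t)
    (hN : τ ∈ natC n k y₁.t 𝔉.Om y₁.cfg y₂.cfg (ru o.m O ξ)) {j : ℕ} {e₁ e₂ : o.Y n k j}
    (r₁ : RepE τ y₁ e₁) (r₂ : RepE τ y₂ e₂) (z : M) (s : ι × ι) :
    ⟪ξ z, 𝔉.F0.val j o.P2 e₂.2.1 z s⟫_ℝ = ⟪ξ z, 𝔉.F0.val j o.P2 e₁.2.1 z s⟫_ℝ := by
  rw [r₁.C, r₂.C, ht]
  by_cases k : z ∈ 𝔉.Om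
  · rw [indicator_of_mem k, indicator_of_mem k]
    exact (congrArg (fun a : o.m.A => ⟪ξ z, a⟫_ℝ) (hN z k s)).trans (cj_ru o.ok hO R _)
  · rw [indicator_of_notMem k, indicator_of_notMem k]; rfl

end gen

variable {Wi : Type} {X : Mf 4} {A κ lam : Type} [Fintype A] [Fintype κ] [Fintype lam]
  [DecidableEq lam] {M : Mark X A κ} {W : World M} {N : ML M lam} {Λ : Lns W N}
  {A' h : Type} [Fintype A'] [DecidableEq A'] [Fintype h] {r n : ℕ}
  {J : Job Wi Λ A' h r n} {c : M.Cl} {σ : Cel A'} {p : Prt A A' h} {U : Type} [Fintype U] {δ : ℝ}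
  {b : Bp J c} {E : EC b p U δ} (H : CS σ E) {q : Wi →₀ ℝ}
include H

/-- **normal variations have normal curvature rows** -/
theorem nrm_row {x : Pnt E.o r} {O : Set (W.Z c).M} (hO : IsClopen O) {ξ : (W.Z c).M → E.o.m.A}
    (R : Rd (J.G c (b.θ p U x.t)).F E.o.m x.cfg.W O ξ) (hz : ∀ z ∈ O, x.cfg.Φ z = 0)
    {α : (W.Z c).M → Fm (Option κ) E.o.m.A} (hα : α ∈ Mod61.Hs (b.F p U δ).F0.toPre E.o.P1)
    (h0 : ∀ z ∉ O, α z = 0) (hn : ∀ z j, ⟪α z j, ξ z⟫_ℝ = 0) {f : E.C → E.Y} (hf : E.Map q f)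
    (ψ η : E.K) (z : (W.Z c).M) (j : Option κ × Option κ) :
    ⟪(b.F p U δ).F0.val 8 E.o.P2 (fderiv ℝ f (x.pt 8, ψ) ((ofV _ 9 _ α, 0, 0), η)).1.2.1 z j,
      ξ z⟫_ℝ = 0 := by
  let L : E.Y →L[ℝ] ℝ := (innerSL ℝ (ξ z)) ∘L (PiLp.proj 2 (fun _ => E.o.m.A) j) ∘L
    (b.F p U δ).F0.ev 8 E.o.P2 z ∘L (.fst ℝ _ _) ∘L (.snd ℝ _ _) ∘L (.fst ℝ _ _)
  have d := L.hasFDerivAt.comp_hasDerivAt (0 : ℝ) (der_lnC H.F x hα (zero_mem _) hf.sm ψ η)
  rw [ofV_zero H.F.sup (by norm_num)] at d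
  rw [real_inner_comm]
  refine der_even d fun s => ?_
  have e := eq_ru (y₁ := ln x hα (zero_mem _) s) (y₂ := ln x hα (zero_mem _) (-s)) H.F hO R hz
    (Hs_proj H.F.sup hα) h0 hn s rfl rfl rfl rfl (by simp [ln]) (by simp [ln]) rfl rfl
  have t : (ln x hα (zero_mem _) (-s)).t = (ln x hα (zero_mem _) s).t := rfl
  exact row_ru hO R t (nat_sum H.F (H.nat_e H.hb) (H.nat_τ H.hb) q t e) (hf.e _ _) (hf.e _ _) z j

end Crest.Agent.X212.Nr55
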