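import Crest.Agent.X212.Cqn41.Nr0
import Crest.Agent.X212.Nr55.Rfa

/-! Row 212, NT-R (helper55): the leaf RFL. -/

set_option autoImplicit false
set_option linter.unusedSectionVars false
noncomputable section
open scoped Manifold ContDiff Topology InnerProductSpace
open MeasureTheory Set Function Filter

namespace Crest.Agent.X212.Nr55
open An M Nd18 Mod61 Nk89 Cht98 Rf65 Pte3 Qab60 Nr41 G75 Ins26 Jb7
open An.Job (isClopen_un)
open Nt66 (rf)

variable {κ lam : Type} [Fintype κ] [Fintype lam] [DecidableEq lam] {Lm : LM κ lam}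
  {S : Scene Lm} {D : S.Dat} {i : S.L} {Wi : Type} {r n : ℕ}
  {J : Job Wi (D.Λ i) (S.A ⊕ Unit) S.ls r n} {c : S.M.Cl} {δ : ℝ} {σ : Cel (S.A ⊕ Unit)} {R : S.A}
  {b : Bp J c} {E : ER σ R b δ} {q : Wi →₀ ℝ} {y : J.Obc c} {x : Pnt E.o r} {ψ : E.K}
  {ξ : (D.W.Z c).M → E.o.m.A} (C : Cr q y x ψ ξ)
include C

omit C in
theorem oI_eq : oI D.W c R = D.W.un c {hp R false} := (An.un_one D.W.toCaps c (hp R false)).symm

theorem cl_in : IsClopen (oI D.W c R) := by
  rw [oI_eq]; exact isClopen_un fun ρ k => C.cs.pok.pc ρ (sub_in k)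

theorem ha_off {α} (hα : α ∈ HA C) (z) (hz : z ∉ oI D.W c R) : α z = 0 :=
  idx_off (o := rf E x.t {hp R false} ∅ ∅) (Hs_proj C.cs.F.sup hα z) fun k =>
    hz (by rw [oI_eq]; exact k)

theorem ha_hs {α} (hα : α ∈ HA C) : α ∈ Mod61.Hs (FW σ R b δ).F0.toPre E.o.P1 :=
  Nt66.hs_ex C.cs.F.sup (fun z v k => by
    by_cases hz : z ∈ D.W.un c {hp R false}
    · refine Eq.trans (congrArg (fun P => idx _ P v) ?_) k
      exact (indicator_of_mem (biUnion_subset_biUnion_left sub_in hz) _).trans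
        (indicator_of_mem hz _).symm
    · rw [idx_off (o := rf E x.t {hp R false} ∅ ∅) k hz, map_zero]) hα

theorem rfl_at {f : E.C → E.Y} (hf : E.Map q f) : Rfl C f := fun _ hα hn η z j =>
  nrm_row C.cs (cl_in C) (C.θ.symm ▸ C.ins.ab.rd) C.ins.ab.z (ha_hs C hα) (ha_off C hα) hn hf ψ η z j

omit C in
variable (Lm) in
/-- **LEAF RFL** -/
theorem rfl_ : All Lm Rfl := fun _ _ _ _ _ _ _ _ _ _ =>
  ⟨1, one_pos, fun _ _ _ _ _ _ _ _ _ _ _ C _ hf => rfl_at C hf⟩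

end Crest.Agent.X212.Nr55
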