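import Crest.Agent.X212.Nr55.Rfl
import Crest.Agent.X212.Ax1.Lf

/-! Row 212, NT-R (helper55): the leaf LF0. -/

set_option autoImplicit false
set_option linter.unusedSectionVars false
noncomputable section
open scoped Manifold ContDiff Topology InnerProductSpace
open MeasureTheory Set Function Filter

namespace Crest.Agent.X212.Nr55
open An M Nd18 Mod61 Nk89 Cht98 Rf65 Pte3 Qab60 Nr41 Sob92
open Ax1.Lf (sn lφ lφ_pt lφ_eq map_sn)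

section job
variable {Wi : Type} {X : Mf 4} {A κ lam : Type} [Fintype A] [Fintype κ] [Fintype lam]
  [DecidableEq lam] {M : Mark X A κ} {W : World M} {N : ML M lam} {Λ : Lns W N}
  {A' h : Type} [Fintype A'] [DecidableEq A'] [Fintype h] {r n : ℕ}
  {J : Job Wi Λ A' h r n} {c : M.Cl} {σ : Cel A'} {p : Prt A A' h} {U : Type} [Fintype U] {δ : ℝ}
  {b : Bp J c} {E : EC b p U δ} (H : CS σ E) {q : Wi →₀ ℝ} {Ω : Set (W.Z c).M} (hΩ : IsClopen Ω)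
  {x : Pnt E.o r} (hz : ∀ z ∈ Ω, x.cfg.Φ z = 0) {f : E.C → E.Y} (hf : E.Map q f) (ψ : E.K)
  {φ : (b.F p U δ).F0.H 9 E.o.Pp} (h0 : ∀ z ∉ Ω, (b.F p U δ).F0.val 9 E.o.Pp φ z = 0)
include H hΩ hz hf h0

theorem odd_φ {Y : Type} [NormedAddCommGroup Y] [NormedSpace ℝ Y] (L : E.Y →L[ℝ] Y)
    (hL : ∀ y y' : Pnt E.o r, y'.t = y.t → y'.α = y.α →
      y.Eq y' (fun z => sn Ω z • E.o.m.p z) 1 → L (f (y'.pt 8, ψ)) = L (f (y.pt 8, ψ))) :
    L (Ld f x ψ ((0, φ, 0), 0)) = 0 := by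
  have S := H.F.sup
  have cb := Grp76.Cb_ind (F := (b.F p U δ).F0.toPre) hΩ (Cb_const (ContinuousLinearMap.id ℝ E.o.m.V))
  have mp : Maps E.o.Pp E.o.Pp (Ω.indicator fun _ => ContinuousLinearMap.id ℝ E.o.m.V) :=
    fun z v hv => by by_cases k : z ∈ Ω <;> simp [k, hv]
  let π := (b.F p U δ).F0.mulH 9 E.o.Pp E.o.Pp (Ω.indicator fun _ => .id ℝ E.o.m.V)
  let ι : (b.F p U δ).F0.H 9 E.o.Pp →L[ℝ] E.C := .inl ℝ _ _ ∘L .inr ℝ _ _ ∘L .inl ℝ _ _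
  have e : π φ = φ := val_injective S (by norm_num) (funext fun z =>
    (val_mulH S (by norm_num) cb mp φ z).trans (by by_cases k : z ∈ Ω <;> simp [k, h0]))
  refine e ▸ DFunLike.congr_fun (Nt66.ext_hs S (by norm_num) (A := L ∘L Ld f x ψ ∘L ι ∘L π)
    (B := 0) fun u hu => ?_) φ
  obtain ⟨w, hw, w0, e'⟩ : ∃ w ∈ Mod61.Hs _ E.o.Pp, (∀ z ∉ Ω, w z = 0) ∧
      π (ofV _ 9 _ u) = ofV _ 9 E.o.Pp w := ⟨_, Hs_mul S cb mp hu, fun z k => by simp [k],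
    (ofV_eq S (by norm_num) (funext fun z => (val_mulH S (by norm_num) cb mp _ z).trans
      (congrArg _ (congrFun (val_ofV hu (by norm_num)) z)))).symm⟩
  refine (congrArg (fun a => L (Ld f x ψ (ι a))) e').trans ?_
  have d := L.hasFDerivAt.comp_hasDerivAt (0 : ℝ) (Nt66.der_line (X := E.C) (x := (x.pt 8, ψ))
    (Nt66.open_C H.F) hf.sm ⟨x.mem_U, trivial⟩ ((0, ofV _ 9 E.o.Pp w, 0), 0))
  refine Nt66.der_even d fun s => ?_
  have k : ∀ s : ℝ, ((x.pt 8, ψ) : E.C) + s • ((0, ofV _ 9 E.o.Pp w, 0), 0) =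
      ((lφ x hw s).pt 8, ψ) := fun s =>
    Prod.ext (lφ_pt (k := 8) H.F x hw (by norm_num) s).symm (by simp)
  simp only [comp, k]
  exact hL (lφ x hw s) (lφ x hw (-s)) rfl rfl (lφ_eq H.F x hw hΩ hz w0 s)

/-- **inner variations of the spinor only change the Dirac row inside** -/
theorem tg_φ : Tg Ω ∅ ∅ (Ld f x ψ ((0, φ, 0), 0)) := by
  have k1 := odd_φ H hΩ hz hf ψ h0 (.snd ℝ _ _ ∘L .fst ℝ _ _)
    fun _ _ a b e => (map_sn H hf ψ a b e).2.1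
  refine ⟨fun z k => odd_φ H hΩ hz hf ψ h0
    ((b.F p U δ).F0.ev 8 E.o.Pm z ∘L .fst ℝ _ _ ∘L .fst ℝ _ _)
    fun _ _ a b e => (map_sn H hf ψ a b e).1 z k, fun z _ => ?_, congrArg Prod.snd k1,
    fun i _ => ⟨odd_φ H hΩ hz hf ψ h0 (Y := (J.cut c i).H (J.B c) E.o.m)
      (.proj (φ := fun i : p.H => (J.cut c i).H (J.B c) E.o.m) i ∘L .fst ℝ _ _ ∘L .snd ℝ _ _)
      fun _ _ a b e => congrArg (·.1 i) (map_sn H hf ψ a b e).2.2,
    odd_φ H hΩ hz hf ψ h0 (.proj (φ := fun _ : p.H => ℝ) i ∘L .snd ℝ _ _ ∘L .snd ℝ _ _)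
      fun _ _ a b e => congrArg (·.2 i) (map_sn H hf ψ a b e).2.2⟩⟩
  exact (congrArg (fun a => (b.F p U δ).F0.val 8 E.o.P2 a.1 z) k1).trans (congrFun val_zero z)

end job

open G75 in
/-- **LEAF LF0** -/
theorem lf0 {κ lam : Type} [Fintype κ] [Fintype lam] [DecidableEq lam] (Lm : LM κ lam) :
    All Lm fun C f => Lf0 f C := fun _ _ _ _ _ _ _ _ _ _ =>
  ⟨1, one_pos, fun _ _ _ _ _ _ _ _ _ ψ _ C _ hf _ h0 =>
    tg_φ C.cs (cl_in C) C.ins.ab.z hf ψ h0⟩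

end Crest.Agent.X212.Nr55
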