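import Crest.Agent.X212.Nr55.Rfl
import Crest.Agent.X212.Nt66.Nat
import Crest.Agent.X212.Ax1.Lf

/-! Row 212, NT-R (helper55): inner variations of the connection do not change the outer rows. -/

set_option autoImplicit false
set_option linter.unusedSectionVars false
noncomputable section
open scoped Manifold ContDiff Topology InnerProductSpace
open MeasureTheory Set Function Filter

namespace Crest.Agent.X212.Nr55
open An M Nd18 Mod61 Nk89 Cht98 Rf65 Pte3 Qab60 Nr41 Sob92 Eqv71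
open Ax1.Lf (sn ceq_sn nat_tot)
open Nt66 (ln)

section gen
variable {E : Type} [NormedAddCommGroup E] [NormedSpace ℝ E] [FiniteDimensional ℝ E]
  [MeasurableSpace E] [BorelSpace E]
  {HM : Type} [TopologicalSpace HM] {I : ModelWithCorners ℝ E HM} [I.Boundaryless]
  {M : Type} [TopologicalSpace M] [ChartedSpace HM M] [IsManifold I ∞ M]
  [MeasurableSpace M] [T2Space M] [BorelSpace M] [SecondCountableTopology M]
  {ι lam : Type} [Fintype ι] [Fintype lam] {T : Type} [NormedAddCommGroup T] [NormedSpace ℝ T]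
  {𝔉 : Mod61.Fam I M ι lam T} {r n m k : ℕ} {o : Ref 𝔉} {Ω : Set M}

/-- the Dirac row vanishes where the spinor vanishes -/
theorem D_zero (h : 𝔉.OK) {τ : T → PtX M ι lam r n m} (hτ : NatP o o (fun _ _ => True) τ)
    (hk : 4 ≤ k) (hΩ : IsClopen Ω) {y : Pnt o r} (h0 : ∀ x ∈ Ω, y.cfg.Φ x = 0) {a : o.Y n m k}
    (ha : RepE τ y a) {x : M} (hx : x ∈ Ω) : 𝔉.F0.val _ _ a.1 x = 0 := by
  have e : y.Eq y (fun x => sn Ω x • o.m.p x) 1 :=
    ceq_sn h.B (h.G _ y.ht) (y.ad0 h) hΩ (fun x => by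
      by_cases k : x ∈ Ω
      · rw [h0 x k, smul_zero]; exact h0 x k
      · rw [sn, if_neg k, one_smul]; rfl) _
  have p := ind_fix (val_proj h.sup hk a.1 x)
  have p' : o.m.p x (𝔉.F0.val _ _ a.1 x) = 𝔉.F0.val _ _ a.1 x := by rw [← p, p_pm o.ok]
  by_cases z : x ∈ 𝔉.Om'
  · have n1 := (hτ y y _ 1 rfl trivial e).1 x z
    have v : 𝔉.F0.val _ _ a.1 x = (τ y.t).D y.cfg x := by rw [ha.D, indicator_of_mem z]
    rw [Circle.coe_one, cs_one, sn, if_pos hx, ← v] at n1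
    have n2 : 𝔉.F0.val _ _ a.1 x = (-1 : ℝ) • o.m.p x (𝔉.F0.val _ _ a.1 x) := n1
    rw [p', neg_one_smul, eq_neg_iff_add_eq_zero, ← two_smul ℝ] at n2
    exact (smul_eq_zero.1 n2).resolve_left two_ne_zero
  · rw [ha.D, indicator_of_notMem z]; rfl

end gen

section job
variable {Wi : Type} {X : Mf 4} {A κ lam : Type} [Fintype A] [Fintype κ] [Fintype lam]
  [DecidableEq lam] {M : Mark X A κ} {W : World M} {N : ML M lam} {Λ : Lns W N}
  {A' h : Type} [Fintype A'] [DecidableEq A'] [Fintype h] {r n : ℕ}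
  {J : Job Wi Λ A' h r n} {c : M.Cl} {σ : Cel A'} {p : Prt A A' h} {U : Type} [Fintype U] {δ : ℝ}
  {b : Bp J c} {E : EC b p U δ} (H : CS σ E) {q : Wi →₀ ℝ} {Ω : Set (W.Z c).M} (hΩ : IsClopen Ω)
  {x : Pnt E.o r} {f : E.C → E.Y} (hf : E.Map q f) (ψ : E.K) {Hs : Set h}
  {α : (b.F p U δ).F0.H 9 E.o.P1} (h0 : ∀ z ∉ Ω, (b.F p U δ).F0.val 9 E.o.P1 α z = 0)
  {η : E.K} (hη : ∀ l : p.H, l.1 ∉ Hs → η l = 0)
include H hΩ hf h0 hη

theorem cst_α {Y : Type} [NormedAddCommGroup Y] [NormedSpace ℝ Y] (L : E.Y →L[ℝ] Y)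
    (hL : ∀ (y : Pnt E.o r) (ψ' : E.K), y.t = x.t → y.φ = x.φ → y.z = x.z →
      (∀ z ∉ Ω, y.α z = x.α z) → (∀ l : p.H, l.1 ∉ Hs → ψ' l = ψ l) →
      L (f (y.pt 8, ψ')) = L (f (x.pt 8, ψ))) : L (Ld f x ψ ((α, 0, 0), η)) = 0 := by
  have S := H.F.sup
  have cb := Grp76.Cb_ind (F := (b.F p U δ).F0.toPre) hΩ
    (Cb_const (ContinuousLinearMap.id ℝ (Fm (Option κ) E.o.m.A)))
  have mp : Maps E.o.P1 E.o.P1 (Ω.indicator fun _ => ContinuousLinearMap.id ℝ _) :=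
    fun z v hv => by by_cases k : z ∈ Ω <;> simp [k, hv]
  let π := (b.F p U δ).F0.mulH 9 E.o.P1 E.o.P1 (Ω.indicator fun _ => .id ℝ _)
  let ι : (b.F p U δ).F0.H 9 E.o.P1 →L[ℝ] E.C := .inl ℝ _ _ ∘L .inl ℝ _ _
  have e : π α = α := val_injective S (by norm_num) (funext fun z =>
    (val_mulH S (by norm_num) cb mp α z).trans (by by_cases k : z ∈ Ω <;> simp [k, h0]))
  have k1 : L (Ld f x ψ (0, η)) = 0 := Nt66.der_const
    (L.hasFDerivAt.comp_hasDerivAt (0 : ℝ) (Nt66.der_K H.F x hf.sm ψ η)) fun s =>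
      (hL x _ rfl rfl rfl (fun _ _ => rfl) fun l k => by simp [hη l k]).trans
        (hL x _ rfl rfl rfl (fun _ _ => rfl) fun l k => by simp).symm
  have k2 : L (Ld f x ψ (ι α)) = 0 := by
    refine e ▸ DFunLike.congr_fun (Nt66.ext_hs S (by norm_num) (A := L ∘L Ld f x ψ ∘L ι ∘L π)
      (B := 0) fun u hu => ?_) α
    obtain ⟨w, hw, w0, e'⟩ : ∃ w ∈ Mod61.Hs _ E.o.P1, (∀ z ∉ Ω, w z = 0) ∧
        π (ofV _ 9 _ u) = ofV _ 9 E.o.P1 w := ⟨_, Hs_mul S cb mp hu, fun z k => by simp [k],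
      (ofV_eq S (by norm_num) (funext fun z => (val_mulH S (by norm_num) cb mp _ z).trans
        (congrArg _ (congrFun (val_ofV hu (by norm_num)) z)))).symm⟩
    refine (congrArg (fun a => L (Ld f x ψ (ι a))) e').trans ?_
    have d := L.hasFDerivAt.comp_hasDerivAt (0 : ℝ) (Nt66.der_ln0 H.F x hw (zero_mem _) hf.sm ψ)
    rw [show ofV _ 9 E.o.Pp 0 = 0 from Nt66.ofV_zero S (by norm_num)] at d
    have k := fun s => hL (ln x hw (zero_mem _) s) ψ rfl (by simp [ln]) rfl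
      (fun z k => by simp [ln, w0 z k]) fun _ _ => rfl
    exact Nt66.der_const d fun s => (k s).trans (k 0).symm
  have e2 : (((α, 0, 0), η) : E.C) = ι α + (0, η) :=
    Prod.ext (add_zero _).symm (zero_add _).symm
  rw [e2, map_add, map_add, k1, k2, add_zero]

/-- **inner variations of the connection and of the cuts do not change the other rows** -/
theorem tg_α (hz : ∀ z ∈ Ω, x.cfg.Φ z = 0) (hc : ∀ l : p.H, l.1 ∉ Hs → (J.cut c l).supp ⊆ Ωᶜ) :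
    Tg ∅ Ω Hs (Ld f x ψ ((α, 0, 0), η)) := by
  have Φ : ∀ y : Pnt E.o r, y.φ = x.φ → y.cfg.Φ = x.cfg.Φ := fun y e => congrArg (E.o.Φ0 + ·) e
  have z0 : ∀ z ∉ Ωᶜ, x.cfg.Φ z = 0 := fun z k => hz z (not_not.1 k)
  have k := fun (y : Pnt E.o r) (ht : y.t = x.t) (hφ : y.φ = x.φ) (e : y.z = x.z)
      (ha : ∀ z ∉ Ω, y.α z = x.α z) => Nt66.rows_eq H hΩ.compl ht z0 (Φ y hφ ▸ z0)
    (Nt66.eqOn_p H hΩ.compl (fun z k a => (W_apply y.t y.α a z).trans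
      (by rw [ht, ha z k]; exact (W_apply x.t x.α a z).symm)) (fun z _ => congrFun (Φ y hφ) z) e) q
  refine ⟨fun z _ => cst_α H hΩ hf ψ h0 hη
      ((b.F p U δ).F0.ev 8 E.o.Pm z ∘L .fst ℝ _ _ ∘L .fst ℝ _ _) fun y ψ' a1 a2 a3 a4 _ => ?_,
    fun z hz => cst_α H hΩ hf ψ h0 hη
      ((b.F p U δ).F0.ev 8 E.o.P2 z ∘L .fst ℝ _ _ ∘L .snd ℝ _ _ ∘L .fst ℝ _ _)
      fun y ψ' a1 a2 a3 a4 _ => ?_,
    cst_α H hΩ hf ψ h0 hη (.snd ℝ _ _ ∘L .snd ℝ _ _ ∘L .fst ℝ _ _) fun y ψ' a1 a2 a3 a4 _ =>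
      Prod.ext ((hf.e y ψ').S.trans ((k y a1 a2 a3 a4).2.2.1.trans (hf.e x ψ).S.symm))
        ((hf.e y ψ').R.trans ((k y a1 a2 a3 a4).2.2.2.1.trans (hf.e x ψ).R.symm)),
    fun i hi => ⟨cst_α H hΩ hf ψ h0 hη (Y := (J.cut c i).H (J.B c) E.o.m)
      (.proj (φ := fun i : p.H => (J.cut c i).H (J.B c) E.o.m) i ∘L .fst ℝ _ _ ∘L .snd ℝ _ _)
      fun y ψ' a1 a2 a3 a4 a5 => (hf.row y ψ' i).trans (.trans ?_ (hf.row x ψ i).symm),
    cst_α H hΩ hf ψ h0 hη (.proj (φ := fun _ : p.H => ℝ) i ∘L .snd ℝ _ _ ∘L .snd ℝ _ _)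
      fun y ψ' _ _ _ _ a5 => (hf.nrm y ψ' i).trans (.trans (by rw [a5 i hi]) (hf.nrm x ψ i).symm)⟩⟩
  · by_cases hz' : z ∈ Ω
    · exact (D_zero H.F (nat_tot H) (by norm_num) hΩ (Φ y a2 ▸ hz) (hf.e y ψ') hz').trans
        (D_zero H.F (nat_tot H) (by norm_num) hΩ hz (hf.e x ψ) hz').symm
    · refine (congrFun (hf.e y ψ').D z).trans (.trans ?_ (congrFun (hf.e x ψ).D z).symm)
      by_cases m : z ∈ (b.F p U δ).Om'
      · exact (indicator_of_mem m _).trans (((k y a1 a2 a3 a4).1 z hz' rfl).trans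
          (indicator_of_mem m _).symm)
      · exact (indicator_of_notMem m _).trans (indicator_of_notMem m _).symm
  · refine (congrFun (hf.e y ψ').C z).trans (.trans ?_ (congrFun (hf.e x ψ).C z).symm)
    by_cases m : z ∈ (b.F p U δ).Om
    · exact (indicator_of_mem m _).trans (((k y a1 a2 a3 a4).2.1 z hz rfl).trans
        (indicator_of_mem m _).symm)
    · exact (indicator_of_notMem m _).trans (indicator_of_notMem m _).symm
  · rw [a5 i hi, (k y a1 a2 a3 a4).2.2.2.2 i (hc i hi) rfl]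

end job

section scene
open G75 Ins26 Jb7
variable {κ lam : Type} [Fintype κ] [Fintype lam] [DecidableEq lam] {Lm : LM κ lam}
  {S : Scene Lm} {D : S.Dat} {i : S.L} {Wi : Type} {r n : ℕ}
  {J : Job Wi (D.Λ i) (S.A ⊕ Unit) S.ls r n} {c : S.M.Cl} {δ : ℝ} {σ : Cel (S.A ⊕ Unit)} {R : S.A}
  {b : Bp J c} {E : ER σ R b δ} {q : Wi →₀ ℝ} {y : J.Obc c} {x : Pnt E.o r} {ψ : E.K}
  {ξ : (D.W.Z c).M → E.o.m.A} (C : Cr q y x ψ ξ)
include C

/-- the other cuts lie outside -/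
theorem cut_out (l : (pW J c (shX S {R}) σ R).H) (hl : l.1 ∉ Hi J R) :
    (J.cut c l).supp ⊆ (oI D.W c R)ᶜ := by
  have u : ∀ d, S.M.sys.U (hp R d) = (S.M.sys.w R).sd d := fun d =>
    Subset.antisymm (fun _ k => k R d (Mp86.St.hp_some.2 ⟨rfl, rfl⟩)) fun _ k _ _ e => by
      obtain ⟨rfl, rfl⟩ := Mp86.St.hp_some.1 e
      exact k
  have k := C.cs.pok.nb l l.2
  erw [biUnion_pair, u, u] at k
  have k' := ((C.an.loc.nb l).subset_or_subset ((S.M.sys.w R).op_sd _) ((S.M.sys.w R).op_sd _)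
    (S.M.sys.w R).dj k).resolve_right fun e => hl (show J.nb l ⊆ _ from (u false).symm ▸ e)
  refine (C.cs.ok.cut_sub (P := {hp R true}) (by rwa [biUnion_singleton, u])).trans ?_
  rw [An.un_one]
  exact (Cyl58.disjoint_pc D.W.toCaps (C.cs.pok.pc _ (.inl rfl)) (C.cs.pok.pc _ (.inr rfl))
    fun e => by simpa [hp] using congrFun e R).subset_compl_right

/-- **the first half of `La`** -/
theorem la_tg {f : E.C → E.Y} (hf : E.Map q f)
    (α' : (FW σ R b δ).F0.H 9 (Nt66.rf E x.t {hp R false} ∅ ∅).P1) (α) (η : E.K)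
    (e : (FW σ R b δ).F0.val 9 E.o.P1 α = (FW σ R b δ).F0.val 9 _ α')
    (hη : ∀ l, l.1 ∉ Hi J R → η l = 0) :
    Tg ∅ (oI D.W c R) (Hi J R) (Ld f x ψ ((α, 0, 0), η)) :=
  tg_α C.cs (cl_in C) hf ψ (fun z hz => (congrFun e z).trans
    (idx_off (o := Nt66.rf E x.t {hp R false} ∅ ∅) (val_proj C.cs.F.sup (by norm_num) α' z)
      fun k => hz (by rw [oI_eq]; exact k))) hη C.ins.ab.z (cut_out C)

end scene

end Crest.Agent.X212.Nr55
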